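import Crest.Agent.X212.Brk46.Defs
import Crest.Agent.X212.Brk46.Cy
import Crest.Agent.X212.Brk46.Ky
import Crest.Agent.X212.Brk46.Fre
import Crest.Agent.X212.Brk46.Ext
import Crest.Agent.X212.Brk46.Gw
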